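import Vale.Agent.P072.Absorb

/-!
# Permanence of weakly reversible mass-action systems
-/

namespace Vale.Agent.Results.P072.Permanence

open Set Vale.Agent.P072

/-- For every weakly reversible network with positive rate constants and every positive
stoichiometric class `P` there is a compact `K ⊆ P` such that every solution starting in `P`
exists for all time, stays in `P` and is eventually in `K`. -/
theorem result (d : ℕ) (R : Finset ((Fin d → ℕ) × (Fin d → ℕ)))
    (k : (Fin d → ℕ) × (Fin d → ℕ) → ℝ) (hk : ∀ e ∈ R, 0 < k e) (hwr : WeaklyReversible R)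
    (c : Fin d → ℝ) (hc : ∀ i, 0 < c i) :
    ∃ K : Set (Fin d → ℝ), IsCompact K ∧ K ⊆ posClass R c ∧
      ∀ x0 ∈ posClass R c, ∃ x : ℝ → Fin d → ℝ,
        x 0 = x0 ∧ IsSolutionOn R k x (Ici 0) ∧
        (∀ t ≥ (0 : ℝ), x t ∈ posClass R c) ∧
        (∃ T : ℝ, ∀ t ≥ T, x t ∈ K) ∧
        ∀ T : ℝ, ∀ y : ℝ → Fin d → ℝ,
          y 0 = x0 → IsSolutionOn R k y (Icc 0 T) → EqOn y x (Icc 0 T) := by
  obtain ⟨δ, hδ, E, hab⟩ := absorb hk hwr c hc
  refine ⟨Icc (fun _ => δ) (fun _ => E) ∩ {x | x - c ∈ stoich R}, ?_, ?_, fun x0 hx0 => ?_⟩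
  · exact isCompact_Icc.inter_right
      ((stoich R).closed_of_finiteDimensional.preimage (continuous_id.sub continuous_const))
  · exact fun x hx => ⟨fun i => lt_of_lt_of_le hδ (hx.1.1 i), hx.2⟩
  · obtain ⟨x, lo, hlo, hi, h0, hsol, hbox⟩ := exist_global hk hwr x0 hx0.1
    have htraj : Traj R k c x := ⟨hsol, by rw [h0]; exact hx0.2, lo, hlo, hi, hbox⟩
    obtain ⟨T, hT, hTK⟩ := hab x htraj
    refine ⟨x, h0, hsol, fun t ht => ⟨htraj.pos ht, htraj.mem_class ht⟩,
      ⟨T, fun t ht => ⟨⟨fun i => (hTK t ht i).1, fun i => (hTK t ht i).2⟩,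
        htraj.mem_class (hT.trans ht)⟩⟩, fun S y hy0 hy => ?_⟩
    exact sol_unique hy (hsol.mono Icc_subset_Ici_self) (by rw [hy0, h0])

end Vale.Agent.Results.P072.Permanence
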